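import Crest.Agent.S0047Aux.SkelA
import Crest.Agent.S0047Aux.SkelB

set_option autoImplicit false

namespace Crest.Agent.S0047Aux.ZC

theorem kids_good : Good (app (app fA000 (app fA001 (app fA002 (app fA003 (app fA004 (app fA005 (app fA006 (app (F.nd 398 (app (F.nd 364 (app fA007 fA008) F.nil) (app (F.nd 364 (app fA009 fA010) F.nil) (app fA011 fA012))) F.nil) (app fA013 (app fA014 (app fA015 (app (F.nd 397 (app fA016 (app fA017 (app fA018 fA019))) F.nil) (app (F.nd 397 (app fA020 (app fA021 (app fA022 fA023))) F.nil) (app fA024 (app (F.nd 460 (app (F.nd 395 (app fA025 fA026) F.nil) (app (F.nd 395 (app fA027 fA028) F.nil) (app fA029 fA030))) F.nil) (app (F.nd 332 (app (F.nd 395 (app fA031 fA032) F.nil) (app (F.nd 395 (app fA033 fA034) F.nil) (app fA035 fA036))) F.nil) (app fA037 (app (F.nd 395 (app fA038 (app fA039 (app fA040 fA041))) F.nil) (app (F.nd 395 (app fA042 (app fA043 (app fA044 fA045))) F.nil) (app fA046 (app fA047 (app fA048 (app (F.nd 394 (app (F.nd 364 (app fA049 fA050) F.nil) (app (F.nd 364 (app fA051 fA052) F.nil) (app fA053 fA054))) F.nil) (app fA055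 fA056)))))))))))))))))))))))) (app (F.nd 428 (app fB000 (app (F.nd 332 (app (F.nd 330 (app fB001 fB002) F.nil) fB003) F.nil) (app fB004 (app (F.nd 331 (app fB005 fB006) F.nil) fB007)))) F.nil) (app (F.nd 428 (app fB008 (app (F.nd 332 (app (F.nd 334 (app fB009 fB010) F.nil) fB011) F.nil) (app fB012 (app (F.nd 333 (app fB013 fB014) F.nil) fB015)))) F.nil) (app (F.nd 397 (app fB016 (app (F.nd 394 (app (F.nd 330 (app fB017 fB018) F.nil) fB019) F.nil) (app fB020 (app (F.nd 362 (app fB021 fB022) F.nil) fB023)))) F.nil) (F.nd 397 (app fB024 (app (F.nd 394 (app (F.nd 458 (app fB025 fB026) F.nil) fB027) F.nil) (app fB028 (app (F.nd 426 (app fB029 fB030) F.nil) fB031)))) F.nil))))) 161390617380431786853494948250188242145606612051826469551916209783790476376052574664352834580008614464743948248296718336 20 86182067890164962218321867350962467047678900748714244357548566664197667914010426223678380227646570027625928615455676167621486110115047645140492199936012576094578061992536039918758502288786937669230045280337953554432 0 :=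
  (good_app sA71 sB46).cast (by decide +kernel) (by decide +kernel)

theorem root_good : Good (F.nd 396 (app (app fA000 (app fA001 (app fA002 (app fA003 (app fA004 (app fA005 (app fA006 (app (F.nd 398 (app (F.nd 364 (app fA007 fA008) F.nil) (app (F.nd 364 (app fA009 fA010) F.nil) (app fA011 fA012))) F.nil) (app fA013 (app fA014 (app fA015 (app (F.nd 397 (app fA016 (app fA017 (app fA018 fA019))) F.nil) (app (F.nd 397 (app fA020 (app fA021 (app fA022 fA023))) F.nil) (app fA024 (app (F.nd 460 (app (F.nd 395 (app fA025 fA026) F.nil) (app (F.nd 395 (app fA027 fA028) F.nil) (app fA029 fA030))) F.nil) (app (F.nd 332 (app (F.nd 395 (app fA031 fA032) F.nil) (app (F.nd 395 (app fA033 fA034) F.nil) (app fA035 fA036))) F.nil) (app fA037 (app (F.nd 395 (app fA038 (app fA039 (app fA040 fA041))) F.nil) (app (F.nd 395 (app fA042 (app fA043 (app fA044 fA045))) F.nil) (app fA046 (app fA047 (app fA048 (app (F.nd 394 (app (F.nd 364 (app fA049 fA050) F.nil) (app (F.nd 364 (app fA051 fA052) F.nil) (app fA053 fA054))) F.nil) (app fA055 fA056)))))))))))))))))))))))) (app (F.nd 428 (app fB000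 (app (F.nd 332 (app (F.nd 330 (app fB001 fB002) F.nil) fB003) F.nil) (app fB004 (app (F.nd 331 (app fB005 fB006) F.nil) fB007)))) F.nil) (app (F.nd 428 (app fB008 (app (F.nd 332 (app (F.nd 334 (app fB009 fB010) F.nil) fB011) F.nil) (app fB012 (app (F.nd 333 (app fB013 fB014) F.nil) fB015)))) F.nil) (app (F.nd 397 (app fB016 (app (F.nd 394 (app (F.nd 330 (app fB017 fB018) F.nil) fB019) F.nil) (app fB020 (app (F.nd 362 (app fB021 fB022) F.nil) fB023)))) F.nil) (F.nd 397 (app fB024 (app (F.nd 394 (app (F.nd 458 (app fB025 fB026) F.nil) fB027) F.nil) (app fB028 (app (F.nd 426 (app fB029 fB030) F.nil) fB031)))) F.nil))))) F.nil) 0 21 86182067890164962218321867350962467047678900748714244357548566664197667914010426223678380227646731418243309047242529662569736298357193251752544026405564492304361852468912092493422855123366946283694789228586250272768 86182067890164962218321867350962467047678900748714244357548566664197667914010426223678380227646731418243309047242529662569736298357193251752544026405564492304361852468912092493422855123366946283694789228586250272768 :=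
  (good_nd kids_good (by decide +kernel) (by decide +kernel) rfl (by decide +kernel) (by decide +kernel)).cast
    (by decide +kernel) (by decide +kernel)

end Crest.Agent.S0047Aux.ZC
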